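import Mathlib

/-!
# P314: noncommutative formulas, matrix evaluation, hitting sets

Definitions for the hand-in `P314.DimensionGrowth`.
-/

namespace Vale.Agent.Helper24.P314

/-- Noncommutative formulas over `F` in the variables `x_0, ..., x_{n-1}`: rooted binary trees
whose leaves are variables or scalars and whose internal vertices are addition gates or
multiplication gates with ordered inputs. -/
inductive NCFormula (F : Type) (n : ℕ) : Type
  | var : Fin n → NCFormula F n
  | const : F → NCFormula F n
  | add : NCFormula F n → NCFormula F n → NCFormula F n
  | mul : NCFormula F n → NCFormula F n → NCFormula F n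

namespace NCFormula

variable {F : Type} {n : ℕ}

/-- The size of a formula: the total number of vertices, leaves included. -/
def size : NCFormula F n → ℕ
  | var _ => 1
  | const _ => 1
  | add a b => a.size + b.size + 1
  | mul a b => a.size + b.size + 1

/-- The noncommutative polynomial computed by a formula, an element of the free associative
algebra `F⟨x_0, ..., x_{n-1}⟩`. -/
noncomputable def toPoly [Field F] : NCFormula F n → FreeAlgebra F (Fin n)
  | var i => FreeAlgebra.ι F i
  | const c => algebraMap F (FreeAlgebra F (Fin n)) c
  | add a b => a.toPoly + b.toPoly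
  | mul a b => a.toPoly * b.toPoly

end NCFormula

/-- The class `F_{n,s}(F)`: the polynomials computed by formulas of size at most `s`. -/
def formulaClass (F : Type) [Field F] (n s : ℕ) : Set (FreeAlgebra F (Fin n)) :=
  {f | ∃ φ : NCFormula F n, φ.size ≤ s ∧ φ.toPoly = f}

/-- Ordered matrix evaluation `f(T_0, ..., T_{n-1})` of a noncommutative polynomial at a tuple
of `k × k` matrices (a scalar `a` acts as `a • 1`). -/
noncomputable def evalMat {F : Type} [Field F] {n k : ℕ}
    (T : Fin n → Matrix (Fin k) (Fin k) F) (f : FreeAlgebra F (Fin n)) :
    Matrix (Fin k) (Fin k) F :=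
  FreeAlgebra.lift F T f

/-- A hitting set for `F_{n,s}(F)`: a finite set of matrix tuples (of varying dimensions
`k`, recorded in the first component) such that every nonzero polynomial of the class is
nonzero at some tuple of the set. -/
def IsHittingSet (F : Type) [Field F] (n s : ℕ)
    (H : Set (Σ k : ℕ, Fin n → Matrix (Fin k) (Fin k) F)) : Prop :=
  H.Finite ∧ ∀ f ∈ formulaClass F n s, f ≠ 0 → ∃ T ∈ H, evalMat T.2 f ≠ 0

end Vale.Agent.Helper24.P314
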