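import Vale.Agent.Helper24.P314Poly

/-!
# P314: the identity of algebraicity vanishes on matrices of dimension at most `d`
-/

namespace Vale.Agent.Helper24.P314

open Equiv

section Eval

variable (F : Type) [Field F] {n : ℕ}

theorem evalMat_mono_wordL {k : ℕ} (T : Fin n → Matrix (Fin k) (Fin k) F) (x y : Fin n)
    (e : List ℕ) :
    evalMat T (mono F (wordL x y e)) = (e.map fun j => T x ^ j * T y).prod := by
  induction e with
  | nil => simp [wordL, mono, evalMat]
  | cons j e ih =>
    have h1 : wordL x y (j :: e) = List.replicate j x ++ ([y] ++ wordL x y e) := rfl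
    unfold evalMat at ih ⊢
    rw [h1, mono_append, mono_append, map_mul, map_mul, ih, mono_replicate, map_pow]
    simp [mono, mul_assoc]

/-- Powers `X^0, ..., X^d` of a `k × k` matrix with `k ≤ d` are linearly dependent. -/
theorem not_linearIndependent_pow {k d : ℕ} (hk : k ≤ d) (A : Matrix (Fin k) (Fin k) F) :
    ¬ LinearIndependent F (fun i : Fin (d + 1) => A ^ (i : ℕ)) := by
  classical
  rw [Fintype.not_linearIndependent_iff]
  set p : Polynomial F := A.charpoly * Polynomial.X ^ (d - k) with hp
  have hmon : p.Monic := (Matrix.charpoly_monic A).mul (Polynomial.monic_X_pow _)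
  have hdeg : p.natDegree = d := by
    rw [hp, Polynomial.Monic.natDegree_mul (Matrix.charpoly_monic A) (Polynomial.monic_X_pow _),
      Matrix.charpoly_natDegree_eq_dim, Polynomial.natDegree_X_pow, Fintype.card_fin]
    omega
  have hev : Polynomial.aeval A p = 0 := by
    rw [hp, map_mul, Matrix.aeval_self_charpoly, zero_mul]
  refine ⟨fun i => p.coeff (i : ℕ), ?_, Fin.last d, ?_⟩
  · rw [Polynomial.aeval_eq_sum_range, hdeg] at hev
    rw [← hev, Finset.sum_range]
  · have : p.coeff d = 1 := by
      rw [← hdeg]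
      exact hmon.coeff_natDegree
    simp [this]

/-- The alternating sum `∑_σ sgn(σ) X^{σ(0)} Y ... X^{σ(d)} Y` vanishes on `k × k` matrices
with `k ≤ d`. -/
theorem alt_sum_eq_zero {k d : ℕ} (hk : k ≤ d) (A B : Matrix (Fin k) (Fin k) F) :
    ∑ σ : Perm (Fin (d + 1)), (((Perm.sign σ : ℤˣ) : ℤ) : F) •
      (List.ofFn fun i : Fin (d + 1) => A ^ ((σ i : Fin (d + 1)) : ℕ) * B).prod = 0 := by
  classical
  let m : MultilinearMap F (fun _ : Fin (d + 1) => Matrix (Fin k) (Fin k) F)
      (Matrix (Fin k) (Fin k) F) :=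
    (MultilinearMap.mkPiAlgebraFin F (d + 1) (Matrix (Fin k) (Fin k) F)).compLinearMap
      (fun _ => LinearMap.mulRight F B)
  have h := AlternatingMap.map_linearDependent (MultilinearMap.alternatization m)
    (fun i : Fin (d + 1) => A ^ (i : ℕ)) (not_linearIndependent_pow F hk A)
  rw [MultilinearMap.alternatization_apply] at h
  rw [← h]
  refine Finset.sum_congr rfl fun σ _ => ?_
  rw [Units.smul_def, ← Int.cast_smul_eq_zsmul F]
  rfl

theorem evalMat_algId {k d : ℕ} (hk : k ≤ d) (T : Fin n → Matrix (Fin k) (Fin k) F)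
    (x y : Fin n) : evalMat T (algId F d x y) = 0 := by
  have h := alt_sum_eq_zero F hk (T x) (T y)
  rw [← h]
  unfold algId
  have h2 : ∀ σ : Perm (Fin (d + 1)),
      evalMat T (mono F (wordL x y (expL d σ))) =
        (List.ofFn fun i : Fin (d + 1) => T x ^ ((σ i : Fin (d + 1)) : ℕ) * T y).prod := by
    intro σ
    rw [evalMat_mono_wordL, expL, List.map_ofFn]
    rfl
  unfold evalMat at h2 ⊢
  rw [map_sum]
  refine Finset.sum_congr rfl fun σ _ => ?_
  rw [map_smul, h2]

end Eval

end Vale.Agent.Helper24.P314
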