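import Vale.Agent.Helper24.P314Eval

/-!
# P314: a small formula for the identity of algebraicity
-/

namespace Vale.Agent.Helper24.P314

open Equiv

namespace NCFormula

variable {F : Type} {n : ℕ}

/-- A formula for the power `v^k`. -/
def powF [One F] (v : NCFormula F n) : ℕ → NCFormula F n
  | 0 => const 1
  | k + 1 => mul v (powF v k)

/-- A formula for the monomial of the word `x^{e_0} y x^{e_1} y ...`. -/
def wordF [One F] (x y : Fin n) : List ℕ → NCFormula F n
  | [] => const 1
  | k :: e => mul (powF (var x) k) (mul (var y) (wordF x y e))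

/-- A formula for the sum of a list of formulas. -/
def sumF [Zero F] : List (NCFormula F n) → NCFormula F n
  | [] => const 0
  | a :: l => add a (sumF l)

theorem size_powF [One F] (v : NCFormula F n) (k : ℕ) :
    (powF v k).size = k * (v.size + 1) + 1 := by
  induction k with
  | zero => simp [powF, size]
  | succ k ih =>
    rw [powF, size, ih]
    ring

theorem size_wordF [One F] (x y : Fin n) (e : List ℕ) :
    (wordF (F := F) x y e).size = 1 + 2 * e.sum + 4 * e.length := by
  induction e with
  | nil => simp [wordF, size]
  | cons k e ih =>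
    rw [wordF, size, size, size_powF, ih, List.sum_cons, List.length_cons]
    simp only [size]
    ring

theorem size_sumF [Zero F] (l : List (NCFormula F n)) :
    (sumF l).size = 1 + (l.map fun a => a.size + 1).sum := by
  induction l with
  | nil => simp [sumF, size]
  | cons a l ih =>
    rw [sumF, size, ih, List.map_cons, List.sum_cons]
    ring

theorem toPoly_powF [Field F] (v : NCFormula F n) (k : ℕ) :
    (powF v k).toPoly = v.toPoly ^ k := by
  induction k with
  | zero => simp [powF, toPoly]
  | succ k ih => rw [powF, toPoly, ih, pow_succ']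

theorem toPoly_wordF [Field F] (x y : Fin n) (e : List ℕ) :
    (wordF (F := F) x y e).toPoly = mono F (wordL x y e) := by
  induction e with
  | nil => simp [wordF, toPoly, wordL, mono]
  | cons k e ih =>
    have h1 : wordL x y (k :: e) = List.replicate k x ++ ([y] ++ wordL x y e) := rfl
    rw [wordF, toPoly, toPoly, toPoly_powF, ih, h1, mono_append, mono_append, mono_replicate]
    simp [toPoly, mono]

theorem toPoly_sumF [Field F] (l : List (NCFormula F n)) :
    (sumF l).toPoly = (l.map toPoly).sum := by
  induction l with
  | nil => simp [sumF, toPoly]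
  | cons a l ih => rw [sumF, toPoly, ih, List.map_cons, List.sum_cons]

end NCFormula

section Main

variable (F : Type) [Field F] {n : ℕ}

/-- The formula for one signed monomial of the identity of algebraicity. -/
def termF (d : ℕ) (x y : Fin n) (σ : Perm (Fin (d + 1))) : NCFormula F n :=
  NCFormula.mul (NCFormula.const (((Perm.sign σ : ℤˣ) : ℤ) : F))
    (NCFormula.wordF x y (expL d σ))

theorem sum_expL (d : ℕ) (σ : Perm (Fin (d + 1))) : 2 * (expL d σ).sum = d * (d + 1) := by
  have h1 : (expL d σ).sum = ∑ i : Fin (d + 1), ((σ i : Fin (d + 1)) : ℕ) := by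
    rw [expL, List.sum_ofFn]
  have h2 : ∑ i : Fin (d + 1), ((σ i : Fin (d + 1)) : ℕ) = ∑ i : Fin (d + 1), (i : ℕ) :=
    Equiv.sum_comp σ (fun i : Fin (d + 1) => (i : ℕ))
  have h3 : ∑ i : Fin (d + 1), (i : ℕ) = ∑ i ∈ Finset.range (d + 1), i :=
    (Finset.sum_range (fun i => i)).symm
  have h4 := Finset.sum_range_id_mul_two (d + 1)
  rw [h1, h2, h3]
  simp only [Nat.add_sub_cancel] at h4
  linarith

theorem size_termF (d : ℕ) (x y : Fin n) (σ : Perm (Fin (d + 1))) :
    (termF F d x y σ).size = d * (d + 1) + 4 * (d + 1) + 3 := by
  have h := sum_expL d σ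
  have hl : (expL d σ).length = d + 1 := by simp [expL]
  rw [termF, NCFormula.size, NCFormula.size_wordF, hl]
  simp only [NCFormula.size]
  omega

theorem toPoly_termF (d : ℕ) (x y : Fin n) (σ : Perm (Fin (d + 1))) :
    (termF F d x y σ).toPoly =
      (((Perm.sign σ : ℤˣ) : ℤ) : F) • mono F (wordL x y (expL d σ)) := by
  rw [termF, NCFormula.toPoly, NCFormula.toPoly_wordF, Algebra.smul_def]
  rfl

/-- The identity of algebraicity has a formula of size at most `(d+1)! (d+3)^2`. -/
theorem algId_mem_formulaClass (d s : ℕ) (x y : Fin n)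
    (hs : (d + 1).factorial * (d + 3) ^ 2 ≤ s) : algId F d x y ∈ formulaClass F n s := by
  classical
  refine ⟨NCFormula.sumF ((Finset.univ : Finset (Perm (Fin (d + 1)))).toList.map
    (termF F d x y)), ?_, ?_⟩
  · rw [NCFormula.size_sumF, List.map_map]
    have h1 : ((Finset.univ : Finset (Perm (Fin (d + 1)))).toList.map
        ((fun a : NCFormula F n => a.size + 1) ∘ termF F d x y)).sum =
        (d + 1).factorial * (d * (d + 1) + 4 * (d + 1) + 4) := by
      rw [Finset.sum_map_toList]
      simp only [Function.comp_apply, size_termF]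
      rw [Finset.sum_const, Finset.card_univ, Fintype.card_perm, Fintype.card_fin, smul_eq_mul]
    rw [h1]
    have hpos : 1 ≤ (d + 1).factorial := Nat.factorial_pos _
    have h2 : (d + 1).factorial * (d + 3) ^ 2 =
        (d + 1).factorial * (d * (d + 1) + 4 * (d + 1) + 4) + (d + 1).factorial * (d + 1) := by
      ring
    have h3 : 1 ≤ (d + 1).factorial * (d + 1) := Nat.mul_pos hpos (Nat.succ_pos d)
    omega
  · rw [NCFormula.toPoly_sumF, List.map_map, Finset.sum_map_toList]
    unfold algId
    refine Finset.sum_congr rfl fun σ _ => ?_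
    rw [Function.comp_apply, toPoly_termF]

end Main

end Vale.Agent.Helper24.P314
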