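import Vale.Agent.Helper24.P314Word

/-!
# P314: the identity of algebraicity is nonzero and vanishes on small matrices
-/

namespace Vale.Agent.Helper24.P314

open Equiv

section Poly

variable (F : Type) [Field F] {n : ℕ}

/-- The exponent list of a permutation `σ` of `{0, ..., d}`. -/
def expL (d : ℕ) (σ : Perm (Fin (d + 1))) : List ℕ := List.ofFn fun i => (σ i : ℕ)

theorem expL_injective (d : ℕ) : Function.Injective (expL d) := by
  intro σ τ h
  have h2 := List.ofFn_injective h
  ext i
  exact congrFun h2 i

/-- The identity of algebraicity (times `y`):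
`∑_σ sgn(σ) x^{σ(0)} y x^{σ(1)} y ... x^{σ(d)} y`. -/
noncomputable def algId (d : ℕ) (x y : Fin n) : FreeAlgebra F (Fin n) :=
  ∑ σ : Perm (Fin (d + 1)), (((Perm.sign σ : ℤˣ) : ℤ) : F) • mono F (wordL x y (expL d σ))

theorem algId_ne_zero (d : ℕ) {x y : Fin n} (hxy : x ≠ y) : algId F d x y ≠ 0 := by
  classical
  intro h
  have h1 := congrArg (fun p => (FreeAlgebra.equivMonoidAlgebraFreeMonoid p).coeff
    (FreeMonoid.ofList (wordL x y (expL d 1)))) h
  simp only [algId, map_sum, map_smul, equiv_mono, map_zero] at h1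
  rw [MonoidAlgebra.coeff_sum] at h1
  simp only [MonoidAlgebra.coeff_smul, MonoidAlgebra.coeff_single, Finset.sum_apply',
    Finsupp.smul_apply, Finsupp.single_apply, MonoidAlgebra.coeff_zero, Finsupp.zero_apply] at h1
  rw [Finset.sum_eq_single (1 : Perm (Fin (d + 1)))] at h1
  · simp at h1
  · intro σ _ hσ
    have : ¬ (FreeMonoid.ofList (wordL x y (expL d σ)) =
        FreeMonoid.ofList (wordL x y (expL d 1))) := by
      intro h2
      exact hσ (expL_injective d (wordL_injective hxy (FreeMonoid.ofList.injective h2)))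
    simp [this]
  · intro h2
    exact absurd (Finset.mem_univ _) h2

end Poly

end Vale.Agent.Helper24.P314
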