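import Vale.Agent.Helper24.P314Defs

/-!
# P314: words, monomials and the identity of algebraicity

Helper lemmas for the hand-in `P314.DimensionGrowth`.
-/

namespace Vale.Agent.Helper24.P314

open Equiv

section Words

variable {X : Type}

/-- The word `x^{e_0} y x^{e_1} y ... x^{e_m} y` for a list of exponents. -/
def wordL (x y : X) : List ℕ → List X
  | [] => []
  | k :: e => List.replicate k x ++ y :: wordL x y e

/-- Decoding of the exponents of a word. -/
def dec [DecidableEq X] (y : X) : List X → ℕ → List ℕ
  | [], _ => []
  | c :: l, k => if c = y then k :: dec y l 0 else dec y l (k + 1)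

theorem dec_replicate [DecidableEq X] {x y : X} (hxy : x ≠ y) (j : ℕ) (rest : List X) (k : ℕ) :
    dec y (List.replicate j x ++ y :: rest) k = (k + j) :: dec y rest 0 := by
  induction j generalizing k with
  | zero => simp [dec]
  | succ j ih =>
    rw [List.replicate_succ, List.cons_append, dec, if_neg hxy, ih]
    congr 1
    omega

theorem dec_wordL [DecidableEq X] {x y : X} (hxy : x ≠ y) (e : List ℕ) :
    dec y (wordL x y e) 0 = e := by
  induction e with
  | nil => rfl
  | cons k e ih => rw [wordL, dec_replicate hxy, ih, Nat.zero_add]

theorem wordL_injective {x y : X} (hxy : x ≠ y) : Function.Injective (wordL x y) := by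
  classical
  intro e e' h
  have := congrArg (fun l => dec y l 0) h
  simpa [dec_wordL hxy] using this

end Words

section Mono

variable (F : Type) [Field F] {n : ℕ}

/-- The monomial of a word. -/
noncomputable def mono (l : List (Fin n)) : FreeAlgebra F (Fin n) :=
  (l.map (FreeAlgebra.ι F)).prod

theorem mono_nil : mono F ([] : List (Fin n)) = 1 := rfl

theorem mono_cons (a : Fin n) (l : List (Fin n)) :
    mono F (a :: l) = FreeAlgebra.ι F a * mono F l := by
  simp [mono]

theorem mono_append (l l' : List (Fin n)) : mono F (l ++ l') = mono F l * mono F l' := by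
  simp [mono]

theorem mono_replicate (k : ℕ) (a : Fin n) :
    mono F (List.replicate k a) = FreeAlgebra.ι F a ^ k := by
  simp [mono]

/-- The image of a monomial in the monoid algebra of the free monoid is a basis vector. -/
theorem equiv_mono (l : List (Fin n)) :
    FreeAlgebra.equivMonoidAlgebraFreeMonoid (mono F l) =
      MonoidAlgebra.single (FreeMonoid.ofList l) (1 : F) := by
  induction l with
  | nil =>
    rw [mono_nil, map_one]
    rfl
  | cons a l ih =>
    rw [mono_cons, map_mul, ih]
    have h1 : FreeAlgebra.equivMonoidAlgebraFreeMonoid (FreeAlgebra.ι F a) =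
        MonoidAlgebra.single (FreeMonoid.of a) (1 : F) := by
      simp [FreeAlgebra.equivMonoidAlgebraFreeMonoid, MonoidAlgebra.of_apply]
    rw [h1, MonoidAlgebra.single_mul_single, mul_one, FreeMonoid.ofList_cons]

end Mono

end Vale.Agent.Helper24.P314
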