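import Mathlib

/-!
Definitions for problem P344 (arithmetic complexity of the discrete Fourier transform):
linear circuits over the complex numbers with gates `u + w`, `u - w`, `c • u`, represented by the
sequence of coefficient vectors of the linear forms computed at the gates.
-/

namespace Vale.Agent.Helper24.P344

/-- Row `k` of the unnormalized discrete Fourier matrix `F_n = (ζ_n^(j*k))`, where
`ζ_n = exp(2πi/n)`: the coefficient vector of the `k`-th output `∑_j ζ_n^(j*k) x_j`. -/
noncomputable def dftRow (n : ℕ) (k : Fin n) : Fin n → ℂ :=
  fun j => Complex.exp (2 * Real.pi * Complex.I / n) ^ (j.val * k.val)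

/-- `Avail n m v k u`: in a circuit on inputs `x_0, ..., x_(n-1)` whose `m` gates compute, in
this order, the linear forms with coefficient vectors `v 0, ..., v (m-1)`, the linear form with
coefficient vector `u` is available before gate number `k`: it is the constant `0`, an input
`x_j`, or the value of a gate of index `< k`. -/
def Avail (n m : ℕ) (v : Fin m → Fin n → ℂ) (k : ℕ) (u : Fin n → ℂ) : Prop :=
  u = 0 ∨ (∃ j : Fin n, u = Pi.single j 1) ∨ ∃ i : Fin m, i.val < k ∧ u = v i

/-- `IsLinearCircuit n m v`: `v 0, ..., v (m-1)` are the values of the gates of a linear circuit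
with `m` gates on `n` inputs: every gate computes `u + w` or `u - w` from two previously available
values, or `c • u` from one previously available value and a fixed scalar `c : ℂ`. -/
def IsLinearCircuit (n m : ℕ) (v : Fin m → Fin n → ℂ) : Prop :=
  ∀ k : Fin m,
    (∃ u w : Fin n → ℂ, Avail n m v k u ∧ Avail n m v k w ∧ (v k = u + w ∨ v k = u - w)) ∨
    (∃ u : Fin n → ℂ, Avail n m v k u ∧ ∃ c : ℂ, v k = c • u)

/-- The circuit computes `F_n x`: every row of `F_n` is one of the values available after all
`m` gates. -/
def ComputesDFT (n m : ℕ) (v : Fin m → Fin n → ℂ) : Prop :=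
  IsLinearCircuit n m v ∧ ∀ k : Fin n, Avail n m v m (dftRow n k)

end Vale.Agent.Helper24.P344
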