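import Mathlib
import Vale.Agent.Helper24.P344Defs

/-!
Lemmas for the linear lower bound on linear circuits computing the discrete Fourier transform.
-/

namespace Vale.Agent.Helper24.P344

open Complex in
/-- the standard primitive root -/
noncomputable def zeta24 (n : ℕ) : ℂ := Complex.exp (2 * Real.pi * Complex.I / n)

theorem zeta24_prim (n : ℕ) (hn : n ≠ 0) : IsPrimitiveRoot (zeta24 n) n := by
  unfold zeta24
  exact Complex.isPrimitiveRoot_exp n hn

/-- Galois step: a rational polynomial vanishing at zeta vanishes at zeta^a for a coprime to n -/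
theorem galois_step (n : ℕ) (hn : 0 < n) (a : ℕ) (ha : Nat.Coprime a n) (P : Polynomial ℚ)
    (hP : Polynomial.aeval (zeta24 n) P = 0) : Polynomial.aeval ((zeta24 n) ^ a) P = 0 := by
  have hz := zeta24_prim n hn.ne'
  have hz' : IsPrimitiveRoot ((zeta24 n) ^ a) n := hz.pow_of_coprime a ha
  have h1 : minpoly ℚ (zeta24 n) ∣ P := minpoly.dvd ℚ _ hP
  have h2 : minpoly ℚ (zeta24 n) = minpoly ℚ ((zeta24 n) ^ a) := by
    rw [← Polynomial.cyclotomic_eq_minpoly_rat hz hn, ← Polynomial.cyclotomic_eq_minpoly_rat hz' hn]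
  rw [h2] at h1
  obtain ⟨Q, rfl⟩ := h1
  simp [minpoly.aeval]

theorem stdAddChar_natCast (n : ℕ) [NeZero n] (t : ℕ) :
    ZMod.stdAddChar ((t : ZMod n)) = (zeta24 n) ^ t := by
  have := ZMod.stdAddChar_coe (N := n) (t : ℤ)
  simp only [Int.cast_natCast] at this
  rw [this, zeta24, ← Complex.exp_nat_mul]
  congr 1
  ring

open ZMod in
theorem orbit_invariance (n : ℕ) [NeZero n] (Φ : ZMod n → ℂ)
    (h : ∀ a : ℕ, Nat.Coprime a n → ∀ y : ZMod n,
      ∑ x : ZMod n, Φ x * ZMod.stdAddChar ((a : ZMod n) * y * x)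
        = ∑ x : ZMod n, Φ x * ZMod.stdAddChar (y * x))
    (u : (ZMod n)ˣ) (x : ZMod n) : Φ (u * x) = Φ x := by
  have key : ∀ y : ZMod n, ∑ x : ZMod n, Φ x * ZMod.stdAddChar (y * x) = ZMod.dft Φ (-y) := by
    intro y
    rw [ZMod.dft_apply]
    refine Finset.sum_congr rfl fun x _ => ?_
    rw [smul_eq_mul, mul_comm]
    congr 2
    ring
  have h2 : ∀ z : ZMod n, ZMod.dft Φ ((u⁻¹ : (ZMod n)ˣ) * z) = ZMod.dft Φ z := by
    intro z
    have h3 := h ((u⁻¹ : (ZMod n)ˣ) : ZMod n).val (ZMod.val_coe_unit_coprime _) (-z)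
    rw [key (-z), ZMod.natCast_zmod_val] at h3
    have h4 := key (((u⁻¹ : (ZMod n)ˣ) : ZMod n) * (-z))
    rw [neg_neg] at h3
    have h7 : -(((u⁻¹ : (ZMod n)ˣ) : ZMod n) * (-z)) = ((u⁻¹ : (ZMod n)ˣ) : ZMod n) * z := by ring
    rw [h7] at h4
    rw [← h3, ← h4]
  have h5 : ZMod.dft (fun j => Φ (u.val * j)) = ZMod.dft Φ := by
    funext k
    rw [ZMod.dft_comp_unitMul, h2]
  have h6 := (ZMod.dft (N := n) (E := ℂ)).injective h5
  exact congrFun h6 x

/-- residues of the divisors of n -/
def divRes (n : ℕ) : Finset ℕ := (Nat.divisors n).image (fun d => d % n)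

/-- the equivalence ZMod n ≃ Fin n -/
def zmodFin (n : ℕ) [NeZero n] : ZMod n ≃ Fin n where
  toFun x := ⟨x.val, x.val_lt⟩
  invFun k := (k.val : ZMod n)
  left_inv x := by simp
  right_inv k := by
    apply Fin.ext
    simp [ZMod.val_natCast, Nat.mod_eq_of_lt k.isLt]

theorem rat_indep (n : ℕ) (hn : 0 < n) (b c : Fin n → ℚ)
    (hc : ∀ k : Fin n, k.val ∈ divRes n → c k = 0)
    (h : ∀ j : Fin n, (b j : ℂ) + ∑ k : Fin n, (c k : ℂ) * (zeta24 n) ^ (j.val * k.val) = 0) :
    (∀ k, c k = 0) ∧ ∀ j, b j = 0 := by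
  have : NeZero n := ⟨hn.ne'⟩
  -- Step 1
  have h1 : ∀ a : ℕ, Nat.Coprime a n → ∀ j : Fin n,
      (b j : ℂ) + ∑ k : Fin n, (c k : ℂ) * ((zeta24 n) ^ a) ^ (j.val * k.val) = 0 := by
    intro a ha j
    have := galois_step n hn a ha
      (Polynomial.C (b j) + ∑ k : Fin n, Polynomial.C (c k) * Polynomial.X ^ (j.val * k.val))
      (by simpa using h j)
    simpa using this
  -- Step 2
  let Φ : ZMod n → ℂ := fun x => (c (zmodFin n x) : ℂ)
  have h2 : ∀ a : ℕ, ∀ y : ZMod n,
      ∑ x : ZMod n, Φ x * ZMod.stdAddChar ((a : ZMod n) * y * x)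
        = ∑ k : Fin n, (c k : ℂ) * ((zeta24 n) ^ a) ^ ((zmodFin n y).val * k.val) := by
    intro a y
    refine Fintype.sum_equiv (zmodFin n) _ _ fun x => ?_
    have : (a : ZMod n) * y * x = ((a * (y.val * x.val) : ℕ) : ZMod n) := by
      push_cast
      rw [ZMod.natCast_zmod_val, ZMod.natCast_zmod_val]
      ring
    rw [this, stdAddChar_natCast, pow_mul]
    rfl
  have h3 : ∀ a : ℕ, Nat.Coprime a n → ∀ y : ZMod n,
      ∑ x : ZMod n, Φ x * ZMod.stdAddChar ((a : ZMod n) * y * x)
        = ∑ x : ZMod n, Φ x * ZMod.stdAddChar (y * x) := by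
    intro a ha y
    have e1 := h1 a ha (zmodFin n y)
    have e2 := h1 1 (Nat.coprime_one_left n) (zmodFin n y)
    have e3 := h2 1 y
    rw [h2 a y]
    simp only [Nat.cast_one, one_mul] at e3
    rw [e3]
    linear_combination e1 - e2
  have h4 := orbit_invariance n Φ h3
  -- Step 3
  have h5 : ∀ k : Fin n, c k = 0 := by
    intro k
    by_cases hk : k.val ∈ divRes n
    · exact hc k hk
    · obtain ⟨d, hd, u, hu, hx0⟩ := ((zmodFin n).symm k).eq_unit_mul_divisor
      have e1 : Φ ((zmodFin n).symm k) = (c k : ℂ) := by simp [Φ]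
      have e2 : Φ ((zmodFin n).symm k) = Φ (d : ZMod n) := by
        rw [hx0]
        exact h4 hu.unit _
      have e3 : Φ (d : ZMod n) = 0 := by
        have : c (zmodFin n (d : ZMod n)) = 0 := by
          apply hc
          simp only [zmodFin, Equiv.coe_fn_mk, ZMod.val_natCast, divRes, Finset.mem_image]
          exact ⟨d, Nat.mem_divisors.mpr ⟨hd, hn.ne'⟩, rfl⟩
        simp [Φ, this]
      rw [e1] at e2
      rw [← e2] at e3
      exact_mod_cast e3
  refine ⟨h5, fun j => ?_⟩
  have := h j
  simp only [h5, Rat.cast_zero, zero_mul, Finset.sum_const_zero, add_zero] at this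
  exact_mod_cast this

theorem fam_indep (n : ℕ) (hn : 0 < n) :
    LinearIndependent ℚ (Sum.elim (fun j : Fin n => (Pi.single j (1 : ℂ) : Fin n → ℂ))
      (fun k : {k : Fin n // k.val ∉ divRes n} => dftRow n k.1)) := by
  classical
  rw [Fintype.linearIndependent_iff]
  intro g hg
  let b : Fin n → ℚ := fun j => g (Sum.inl j)
  let c : Fin n → ℚ := fun k => if hk : k.val ∉ divRes n then g (Sum.inr ⟨k, hk⟩) else 0
  have hc : ∀ k : Fin n, k.val ∈ divRes n → c k = 0 := by
    intro k hk
    simp [c, hk]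
  have key : ∀ j : Fin n, (b j : ℂ) + ∑ k : Fin n, (c k : ℂ) * (zeta24 n) ^ (j.val * k.val) = 0 := by
    intro j
    have h1 := congrFun hg j
    rw [Fintype.sum_sum_type] at h1
    simp only [Sum.elim_inl, Sum.elim_inr, Pi.add_apply, Finset.sum_apply, Pi.smul_apply,
      Pi.zero_apply] at h1
    have h2 : ∑ x : Fin n, g (Sum.inl x) • (Pi.single x (1 : ℂ) : Fin n → ℂ) j = (b j : ℂ) := by
      rw [Finset.sum_eq_single j]
      · simp [b, Rat.smul_def]
      · intro x _ hx
        simp [Ne.symm hx]
      · intro hj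
        exact absurd (Finset.mem_univ j) hj
    have h3 : ∑ x : {k : Fin n // k.val ∉ divRes n}, g (Sum.inr x) • dftRow n x.1 j
        = ∑ k : Fin n, (c k : ℂ) * (zeta24 n) ^ (j.val * k.val) := by
      calc ∑ x : {k : Fin n // k.val ∉ divRes n}, g (Sum.inr x) • dftRow n x.1 j
          = ∑ x : {k : Fin n // k.val ∉ divRes n},
              (fun k : Fin n => (c k : ℂ) * (zeta24 n) ^ (j.val * k.val)) x.1 := by
            refine Finset.sum_congr rfl fun x _ => ?_
            have : c x.1 = g (Sum.inr x) := by simp [c, x.2]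
            simp [this, dftRow, zeta24, Rat.smul_def]
        _ = ∑ k ∈ Finset.univ.filter (fun k : Fin n => k.val ∉ divRes n),
              (c k : ℂ) * (zeta24 n) ^ (j.val * k.val) :=
            (Finset.sum_subtype (p := fun k : Fin n => k.val ∉ divRes n)
              (Finset.univ.filter (fun k : Fin n => k.val ∉ divRes n))
              (fun x => by simp) (fun k : Fin n => (c k : ℂ) * (zeta24 n) ^ (j.val * k.val))).symm
        _ = ∑ k : Fin n, (c k : ℂ) * (zeta24 n) ^ (j.val * k.val) := by
            apply Finset.sum_filter_of_ne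
            intro k _ hne
            by_contra hk
            exact hne (by rw [hc k hk]; simp)
    rw [h2, h3] at h1
    exact h1
  obtain ⟨hc0, hb0⟩ := rat_indep n hn b c hc key
  intro i
  rcases i with j | k
  · exact hb0 j
  · have := hc0 k.1
    simp only [c, dif_pos k.2] at this
    exact this

theorem card_nondiv (n : ℕ) :
    n ≤ Fintype.card {k : Fin n // k.val ∉ divRes n} + (Nat.divisors n).card := by
  classical
  have h1 : Fintype.card {k : Fin n // k.val ∉ divRes n}
      = Fintype.card (Fin n) - Fintype.card {k : Fin n // k.val ∈ divRes n} :=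
    Fintype.card_subtype_compl _
  have h2 : Fintype.card {k : Fin n // k.val ∈ divRes n} ≤ (divRes n).card := by
    rw [Fintype.card_subtype]
    apply Finset.card_le_card_of_injOn (fun k : Fin n => k.val)
    · intro k hk
      simpa using hk
    · intro a _ b _ hab
      exact Fin.ext hab
  have h3 : (divRes n).card ≤ (Nat.divisors n).card := Finset.card_image_le
  rw [Fintype.card_fin] at h1
  omega

theorem scalar_gates (n m : ℕ) (hn : 0 < n) (v : Fin m → Fin n → ℂ)
    (P : Fin m → Prop) [DecidablePred P]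
    (hP : ∀ k, P k → ∃ u w, Avail n m v k u ∧ Avail n m v k w ∧ (v k = u + w ∨ v k = u - w))
    (hrows : ∀ r : Fin n, Avail n m v m (dftRow n r)) :
    n ≤ (Finset.univ.filter (fun k => ¬ P k)).card + (Nat.divisors n).card := by
  classical
  let G : Finset (Fin n → ℂ) := (Finset.univ.image (fun j : Fin n => (Pi.single j (1:ℂ) : Fin n → ℂ)))
    ∪ ((Finset.univ.filter (fun k => ¬ P k)).image v)
  let W : Submodule ℚ (Fin n → ℂ) := Submodule.span ℚ (G : Set (Fin n → ℂ))
  have hW1 : ∀ j : Fin n, (Pi.single j (1:ℂ) : Fin n → ℂ) ∈ W := by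
    intro j
    apply Submodule.subset_span
    simp [G]
  have hW2 : ∀ k : Fin m, ¬ P k → v k ∈ W := by
    intro k hk
    apply Submodule.subset_span
    simp only [G, Finset.coe_union, Finset.coe_image, Set.mem_union, Set.mem_image]
    right
    exact ⟨k, by simpa using hk, rfl⟩
  have hW3 : ∀ t : ℕ, ∀ k : Fin m, k.val = t → v k ∈ W := by
    intro t
    induction t using Nat.strong_induction_on with
    | _ t ih =>
      intro k hk
      by_cases hPk : P k
      · obtain ⟨u, w, hu, hw, huw⟩ := hP k hPk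
        have av : ∀ x : Fin n → ℂ, Avail n m v k x → x ∈ W := by
          intro x hx
          rcases hx with rfl | ⟨j, rfl⟩ | ⟨i, hi, rfl⟩
          · exact W.zero_mem
          · exact hW1 j
          · exact ih i.val (hk ▸ hi) i rfl
        rcases huw with h | h
        · rw [h]; exact W.add_mem (av u hu) (av w hw)
        · rw [h]; exact W.sub_mem (av u hu) (av w hw)
      · exact hW2 k hPk
  have hW4 : ∀ r : Fin n, dftRow n r ∈ W := by
    intro r
    rcases hrows r with h | ⟨j, h⟩ | ⟨i, _, h⟩
    · rw [h]; exact W.zero_mem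
    · rw [h]; exact hW1 j
    · rw [h]; exact hW3 i.val i rfl
  have hcard : G.card ≤ n + (Finset.univ.filter (fun k => ¬ P k)).card := by
    refine (Finset.card_union_le _ _).trans ?_
    refine add_le_add ?_ Finset.card_image_le
    refine Finset.card_image_le.trans ?_
    simp
  have hfin : Module.finrank ℚ W ≤ G.card := finrank_span_finset_le_card G
  have hli := fam_indep n hn
  have hsub : Submodule.span ℚ (Set.range (Sum.elim (fun j : Fin n => (Pi.single j (1 : ℂ) : Fin n → ℂ))
      (fun k : {k : Fin n // k.val ∉ divRes n} => dftRow n k.1))) ≤ W := by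
    rw [Submodule.span_le]
    rintro x ⟨i, rfl⟩
    rcases i with j | k
    · exact hW1 j
    · exact hW4 k.1
  have h5 := Submodule.finrank_mono hsub
  rw [finrank_span_eq_card hli] at h5
  simp only [Fintype.card_sum, Fintype.card_fin] at h5
  have h6 := card_nondiv n
  omega

theorem dftRow_ne_zero (n : ℕ) (r j : Fin n) : dftRow n r j ≠ 0 := by
  unfold dftRow
  exact pow_ne_zero _ (Complex.exp_ne_zero _)

theorem finrank_inf_ker (n : ℕ) (C : Submodule ℂ (Fin n → ℂ)) (φ : (Fin n → ℂ) →ₗ[ℂ] ℂ) :
    Module.finrank ℂ C ≤ Module.finrank ℂ ↥(C ⊓ LinearMap.ker φ) + 1 := by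
  have h1 := Submodule.finrank_sup_add_finrank_inf_eq C (LinearMap.ker φ)
  have h2 := LinearMap.finrank_range_add_finrank_ker φ
  have h3 : Module.finrank ℂ (LinearMap.range φ) ≤ 1 := by
    have := Submodule.finrank_le (LinearMap.range φ)
    simpa using this
  have h4 := Submodule.finrank_le (C ⊔ LinearMap.ker φ)
  omega

/-- the potential: functions constant on the support of every gate value with index below k -/
def potC (n m : ℕ) (v : Fin m → Fin n → ℂ) (k : ℕ) : Submodule ℂ (Fin n → ℂ) where
  carrier := {f | ∀ i : Fin m, i.val < k → ∀ a b, v i a ≠ 0 → v i b ≠ 0 → f a = f b}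
  add_mem' := by
    intro f g hf hg i hi a b ha hb
    simp [hf i hi a b ha hb, hg i hi a b ha hb]
  zero_mem' := by
    intro i hi a b ha hb
    rfl
  smul_mem' := by
    intro c f hf i hi a b ha hb
    simp [hf i hi a b ha hb]

theorem avail_const (n m : ℕ) (v : Fin m → Fin n → ℂ) (k : ℕ) (u : Fin n → ℂ)
    (hu : Avail n m v k u) (f : Fin n → ℂ) (hf : f ∈ potC n m v k) (a b : Fin n)
    (ha : u a ≠ 0) (hb : u b ≠ 0) : f a = f b := by
  rcases hu with rfl | ⟨j, rfl⟩ | ⟨i, hi, rfl⟩
  · simp at ha
  · have h1 : a = j := by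
      by_contra h
      exact ha (by simp [h])
    have h2 : b = j := by
      by_contra h
      exact hb (by simp [h])
    rw [h1, h2]
  · exact hf i hi a b ha hb

theorem potential (n m : ℕ) (v : Fin m → Fin n → ℂ)
    (P : Fin m → Prop) [DecidablePred P]
    (hP : ∀ k, P k → ∃ u w, Avail n m v k u ∧ Avail n m v k w ∧ (v k = u + w ∨ v k = u - w))
    (hnP : ∀ k, ¬ P k → ∃ u, Avail n m v k u ∧ ∃ c : ℂ, v k = c • u) :
    ∀ k : ℕ, k ≤ m → n ≤ Module.finrank ℂ (potC n m v k)
      + (Finset.univ.filter (fun i : Fin m => i.val < k ∧ P i)).card := by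
  intro k
  induction k with
  | zero =>
    intro _
    have : potC n m v 0 = ⊤ := by
      rw [eq_top_iff]
      intro f _ i hi
      exact absurd hi (Nat.not_lt_zero _)
    rw [this]
    simp
  | succ k ih =>
    intro hk
    have ih' := ih (by omega)
    let i0 : Fin m := ⟨k, by omega⟩
    by_cases hPi : P i0
    · obtain ⟨u, w, hu, hw, huw⟩ := hP i0 hPi
      have hcount : (Finset.univ.filter (fun i : Fin m => i.val < k ∧ P i)).card + 1
          ≤ (Finset.univ.filter (fun i : Fin m => i.val < k + 1 ∧ P i)).card := by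
        have hnot : i0 ∉ Finset.univ.filter (fun i : Fin m => i.val < k ∧ P i) := by
          simp [i0]
        rw [← Finset.card_insert_of_notMem hnot]
        apply Finset.card_le_card
        intro i hi
        rw [Finset.mem_insert] at hi
        rcases hi with rfl | hi
        · simp [i0, hPi]
        · simp only [Finset.mem_filter, Finset.mem_univ, true_and] at hi ⊢
          exact ⟨by omega, hi.2⟩
      have hsupp : ∀ a : Fin n, v i0 a ≠ 0 → u a ≠ 0 ∨ w a ≠ 0 := by
        intro a ha
        by_contra hcon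
        rw [not_or, not_not, not_not] at hcon
        rcases huw with h | h
        · exact ha (by rw [h]; simp [hcon.1, hcon.2])
        · exact ha (by rw [h]; simp [hcon.1, hcon.2])
      have hφ : ∃ φ : (Fin n → ℂ) →ₗ[ℂ] ℂ,
          potC n m v k ⊓ LinearMap.ker φ ≤ potC n m v (k + 1) := by
        by_cases hne : (∃ a0, u a0 ≠ 0) ∧ (∃ b0, w b0 ≠ 0)
        · obtain ⟨⟨a0, ha0⟩, ⟨b0, hb0⟩⟩ := hne
          let pr : Fin n → ((Fin n → ℂ) →ₗ[ℂ] ℂ) := fun a => LinearMap.proj a
          refine ⟨pr a0 - pr b0, ?_⟩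
          intro f hf
          obtain ⟨hf1, hf2⟩ := hf
          have hf2' : f a0 = f b0 := by
            have : (pr a0 - pr b0) f = 0 := hf2
            simpa [pr, sub_eq_zero] using this
          intro i hi a b ha hb
          by_cases hik : i.val < k
          · exact hf1 i hik a b ha hb
          · have hi0 : i = i0 := Fin.ext (by simp [i0]; omega)
            subst hi0
            rcases hsupp a ha with hua | hwa <;> rcases hsupp b hb with hub | hwb
            · exact avail_const n m v k u hu f hf1 a b hua hub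
            · rw [avail_const n m v k u hu f hf1 a a0 hua ha0, hf2',
                avail_const n m v k w hw f hf1 b0 b hb0 hwb]
            · rw [avail_const n m v k w hw f hf1 a b0 hwa hb0, ← hf2',
                avail_const n m v k u hu f hf1 a0 b ha0 hub]
            · exact avail_const n m v k w hw f hf1 a b hwa hwb
        · refine ⟨0, ?_⟩
          intro f hf
          obtain ⟨hf1, _⟩ := hf
          intro i hi a b ha hb
          by_cases hik : i.val < k
          · exact hf1 i hik a b ha hb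
          · have hi0 : i = i0 := Fin.ext (by simp [i0]; omega)
            subst hi0
            rcases hsupp a ha with hua | hwa <;> rcases hsupp b hb with hub | hwb
            · exact avail_const n m v k u hu f hf1 a b hua hub
            · exact absurd ⟨⟨a, hua⟩, ⟨b, hwb⟩⟩ hne
            · exact absurd ⟨⟨b, hub⟩, ⟨a, hwa⟩⟩ hne
            · exact avail_const n m v k w hw f hf1 a b hwa hwb
      obtain ⟨φ, hφ⟩ := hφ
      have h1 := finrank_inf_ker n (potC n m v k) φ
      have h2 := Submodule.finrank_mono hφ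
      omega
    · obtain ⟨u, hu, c, hc⟩ := hnP i0 hPi
      have hcount : (Finset.univ.filter (fun i : Fin m => i.val < k ∧ P i)).card
          ≤ (Finset.univ.filter (fun i : Fin m => i.val < k + 1 ∧ P i)).card := by
        apply Finset.card_le_card
        intro i hi
        simp only [Finset.mem_filter, Finset.mem_univ, true_and] at hi ⊢
        exact ⟨by omega, hi.2⟩
      have hsub : potC n m v k ≤ potC n m v (k + 1) := by
        intro f hf1 i hi a b ha hb
        by_cases hik : i.val < k
        · exact hf1 i hik a b ha hb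
        · have hi0 : i = i0 := Fin.ext (by simp [i0]; omega)
          subst hi0
          have hua : u a ≠ 0 := by
            intro h
            exact ha (by rw [hc]; simp [h])
          have hub : u b ≠ 0 := by
            intro h
            exact hb (by rw [hc]; simp [h])
          exact avail_const n m v k u hu f hf1 a b hua hub
      have h2 := Submodule.finrank_mono hsub
      omega

theorem roots (n m : ℕ) (v : Fin m → Fin n → ℂ) (hn : 0 < n)
    (P : Fin m → Prop)
    (hnP : ∀ k, ¬ P k → ∃ u, Avail n m v k u ∧ ∃ c : ℂ, v k = c • u) :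
    ∀ t : ℕ, ∀ k : Fin m, k.val = t → ∃ c : ℂ,
      (∃ j : Fin n, v k = c • (Pi.single j (1:ℂ) : Fin n → ℂ)) ∨ (∃ i : Fin m, P i ∧ v k = c • v i) := by
  intro t
  induction t using Nat.strong_induction_on with
  | _ t ih =>
    intro k hk
    by_cases hPk : P k
    · exact ⟨1, Or.inr ⟨k, hPk, by simp⟩⟩
    · obtain ⟨u, hu, c, hc⟩ := hnP k hPk
      rcases hu with rfl | ⟨j, rfl⟩ | ⟨i, hi, rfl⟩
      · exact ⟨0, Or.inl ⟨⟨0, hn⟩, by rw [hc]; simp⟩⟩
      · exact ⟨c, Or.inl ⟨j, hc⟩⟩
      · obtain ⟨c', h⟩ := ih i.val (hk ▸ hi) i rfl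
        rcases h with ⟨j, hj⟩ | ⟨i', hi', hj⟩
        · exact ⟨c * c', Or.inl ⟨j, by rw [hc, hj, smul_smul]⟩⟩
        · exact ⟨c * c', Or.inr ⟨i', hi', by rw [hc, hj, smul_smul]⟩⟩

theorem row_root (n m : ℕ) (v : Fin m → Fin n → ℂ) (hn : 2 ≤ n)
    (P : Fin m → Prop)
    (hnP : ∀ k, ¬ P k → ∃ u, Avail n m v k u ∧ ∃ c : ℂ, v k = c • u)
    (hrows : ∀ r : Fin n, Avail n m v m (dftRow n r)) (r : Fin n) :
    ∃ i : Fin m, P i ∧ ∃ c : ℂ, dftRow n r = c • v i := by
  have hsingle : ∀ (c : ℂ) (j : Fin n), dftRow n r ≠ c • (Pi.single j (1:ℂ) : Fin n → ℂ) := by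
    intro c j h
    obtain ⟨j', hj'⟩ : ∃ j' : Fin n, j' ≠ j := by
      by_cases h0 : j = ⟨0, by omega⟩
      · exact ⟨⟨1, by omega⟩, by rw [h0]; simp [Fin.ext_iff]⟩
      · exact ⟨⟨0, by omega⟩, fun h' => h0 h'.symm⟩
    have := congrFun h j'
    simp [hj'] at this
    exact dftRow_ne_zero n r j' this
  rcases hrows r with h | ⟨j, h⟩ | ⟨i, _, h⟩
  · exact absurd (congrFun h ⟨0, by omega⟩) (dftRow_ne_zero n r _)
  · exact absurd (by rw [h]; simp) (hsingle 1 j)
  · obtain ⟨c, hc⟩ := roots n m v (by omega) P hnP i.val i rfl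
    rcases hc with ⟨j, hj⟩ | ⟨i', hi', hj⟩
    · exact absurd (h.trans hj) (hsingle c j)
    · exact ⟨i', hi', c, h.trans hj⟩

theorem dftRow_inj (n : ℕ) (hn : 2 ≤ n) (r r' : Fin n) (h : dftRow n r = dftRow n r') : r = r' := by
  have h1 := congrFun h ⟨1, by omega⟩
  simp only [dftRow, one_mul] at h1
  have hz := Complex.isPrimitiveRoot_exp n (by omega)
  exact Fin.ext (hz.pow_inj r.isLt r'.isLt h1)

theorem additive_gates (n m : ℕ) (hn : 2 ≤ n) (v : Fin m → Fin n → ℂ)
    (P : Fin m → Prop) [DecidablePred P]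
    (hP : ∀ k, P k → ∃ u w, Avail n m v k u ∧ Avail n m v k w ∧ (v k = u + w ∨ v k = u - w))
    (hnP : ∀ k, ¬ P k → ∃ u, Avail n m v k u ∧ ∃ c : ℂ, v k = c • u)
    (hrows : ∀ r : Fin n, Avail n m v m (dftRow n r)) :
    2 * n ≤ (Finset.univ.filter P).card + 2 := by
  classical
  choose f hf1 hf2 using row_root n m v hn P hnP hrows
  choose cf hcf using hf2
  let Full : Fin m → Prop := fun i => ∀ j, v i j ≠ 0
  have hcne : ∀ r, cf r ≠ 0 := by
    intro r h0
    have := congrFun (hcf r) ⟨0, by omega⟩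
    rw [h0] at this
    simp at this
    exact dftRow_ne_zero n r _ this
  have hfull : ∀ r, Full (f r) := by
    intro r j h0
    have := congrFun (hcf r) j
    simp [h0] at this
    exact dftRow_ne_zero n r j this
  have hinj : Function.Injective f := by
    intro r r' hrr
    have e1 := hcf r
    have e2 := hcf r'
    rw [hrr] at e1
    have a1 := congrFun e1 ⟨0, by omega⟩
    have a2 := congrFun e2 ⟨0, by omega⟩
    simp only [dftRow, zero_mul, pow_zero, Pi.smul_apply, smul_eq_mul] at a1 a2
    have hv0 : v (f r') ⟨0, by omega⟩ ≠ 0 := hfull r' _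
    have hcc : cf r = cf r' := by
      have : cf r * v (f r') ⟨0, by omega⟩ = cf r' * v (f r') ⟨0, by omega⟩ := by rw [← a1, ← a2]
      exact mul_right_cancel₀ hv0 this
    apply dftRow_inj n hn
    rw [e1, e2, hcc]
  -- full additive gates
  have hA1 : n ≤ (Finset.univ.filter (fun i => P i ∧ Full i)).card := by
    have := Finset.card_le_card_of_injOn (s := (Finset.univ : Finset (Fin n)))
      (t := Finset.univ.filter (fun i => P i ∧ Full i)) f
      (by intro r _; simp [hf1 r, hfull r]) (by intro a _ b _ hab; exact hinj hab)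
    simpa using this
  -- first full gate
  have hex : ∃ t : ℕ, ∃ i : Fin m, i.val = t ∧ Full i := ⟨(f ⟨0, by omega⟩).val, f ⟨0, by omega⟩, rfl, hfull _⟩
  obtain ⟨i1, hi1, hfull1⟩ := Nat.find_spec hex
  have hmin : ∀ i : Fin m, i.val < Nat.find hex → ¬ Full i := by
    intro i hi hF
    exact Nat.find_min hex hi ⟨i, rfl, hF⟩
  have hpot := potential n m v P hP hnP (Nat.find hex + 1) (by rw [← hi1]; exact i1.isLt)
  have hdim : Module.finrank ℂ (potC n m v (Nat.find hex + 1)) ≤ 1 := by
    have hsub : potC n m v (Nat.find hex + 1) ≤ Submodule.span ℂ {(fun _ => 1 : Fin n → ℂ)} := by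
      intro g hg
      rw [Submodule.mem_span_singleton]
      refine ⟨g ⟨0, by omega⟩, ?_⟩
      funext a
      simp only [Pi.smul_apply, smul_eq_mul, mul_one]
      exact hg i1 (by omega) _ _ (hfull1 _) (hfull1 _)
    have h1 := Submodule.finrank_mono hsub
    have h2 : Module.finrank ℂ (Submodule.span ℂ {(fun _ => 1 : Fin n → ℂ)}) ≤ 1 := by
      have := finrank_span_le_card (R := ℂ) ({(fun _ => 1 : Fin n → ℂ)} : Set (Fin n → ℂ))
      simpa using this
    omega
  have hA2 : (Finset.univ.filter (fun i : Fin m => i.val < Nat.find hex + 1 ∧ P i)).card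
      ≤ (Finset.univ.filter (fun i => P i ∧ ¬ Full i)).card + 1 := by
    have hsub : Finset.univ.filter (fun i : Fin m => i.val < Nat.find hex + 1 ∧ P i)
        ⊆ insert i1 (Finset.univ.filter (fun i => P i ∧ ¬ Full i)) := by
      intro i hi
      simp only [Finset.mem_filter, Finset.mem_univ, true_and] at hi
      rw [Finset.mem_insert]
      by_cases hlt : i.val < Nat.find hex
      · right
        simp only [Finset.mem_filter, Finset.mem_univ, true_and]
        exact ⟨hi.2, hmin i hlt⟩
      · left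
        exact Fin.ext (by omega)
    exact (Finset.card_le_card hsub).trans (Finset.card_insert_le _ _)
  have hsplit : (Finset.univ.filter (fun i => P i ∧ Full i)).card
      + (Finset.univ.filter (fun i => P i ∧ ¬ Full i)).card = (Finset.univ.filter P).card := by
    rw [← Finset.filter_filter, ← Finset.filter_filter]
    exact Finset.card_filter_add_card_filter_not _
  omega

end Vale.Agent.Helper24.P344
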